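import Vale.Agent.P287Q.H3.A1
import Vale.Agent.P287Q.H3.A2
import Vale.Agent.P287Q.H3.A3
import Vale.Agent.P287Q.H3.Drop
import Vale.Agent.P287Q.H3.Hir
import Vale.Agent.P287Q.H3.Quot
import Vale.Agent.P287Q.H3.Reg

/-!
# Dimension statements on analytic sets without hypotheses
-/

namespace Vale.Agent.P269L.H

open P287Q.H3

theorem drop : StDrop := stDrop stReg stRegX (stHir stClo stReg stRegX)

theorem top : StTop := stTop stReg drop

end Vale.Agent.P269L.H
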